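import Mathlib

/-! Package ABS2 of P301: vanishing N-th difference and pigeonhole. -/

namespace Vale.Agent.P301.H650

open Finset fwdDiff

lemma diff_zero (P : ℕ → ℤ) (N : ℕ)
    (h : ∀ b, ∑ S : Finset (Fin N), (-1 : ℤ) ^ S.card * P (b + S.card) = 0) :
    (fwdDiff (1 : ℕ))^[N] P = 0 := by
  funext b
  rw [fwdDiff_iter_eq_sum_shift]
  have h1 := h b
  have h2 : ∑ S : Finset (Fin N), (-1 : ℤ) ^ S.card * P (b + S.card) =
      ∑ m ∈ range (N + 1), (N.choose m) • ((-1 : ℤ) ^ m * P (b + m)) := by
    rw [← Finset.powerset_univ]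
    have := sum_powerset_apply_card (fun m => (-1 : ℤ) ^ m * P (b + m))
      (x := (Finset.univ : Finset (Fin N)))
    simpa using this
  rw [h2] at h1
  have h3 : ∑ k ∈ range (N + 1), ((-1 : ℤ) ^ (N - k) * (N.choose k : ℤ)) • P (b + k • 1) =
      (-1) ^ N * ∑ m ∈ range (N + 1), (N.choose m) • ((-1 : ℤ) ^ m * P (b + m)) := by
    rw [Finset.mul_sum]
    refine Finset.sum_congr rfl fun k hk => ?_
    have hk' : k ≤ N := by simpa [Nat.lt_succ_iff] using hk
    have h4 : (-1 : ℤ) ^ (N - k) = (-1) ^ N * (-1) ^ k := by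
      have h5 : (-1 : ℤ) ^ N = (-1) ^ (N - k) * (-1) ^ k := by
        rw [← pow_add, Nat.sub_add_cancel hk']
      rw [h5, mul_assoc, ← pow_add, ← two_mul, pow_mul]
      simp
    rw [h4]
    simp only [smul_eq_mul, nsmul_eq_mul, mul_one]
    ring
  rw [h3, h1, mul_zero]
  rfl

lemma poly_of (P : ℕ → ℤ) (N : ℕ)
    (h : ∀ b, ∑ S : Finset (Fin N), (-1 : ℤ) ^ S.card * P (b + S.card) = 0) :
    ∃ q : Polynomial ℚ, q.degree < N ∧ ∀ n : ℕ, q.eval (n : ℚ) = (P n : ℚ) := by
  have hz := diff_zero P N h
  set a : ℕ → ℤ := fun k => (fwdDiff (1 : ℕ))^[k] P 0 with ha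
  have ha0 : ∀ k, N ≤ k → a k = 0 := by
    intro k hk
    obtain ⟨j, rfl⟩ := Nat.exists_eq_add_of_le hk
    simp only [ha]
    rw [add_comm, Function.iterate_add_apply, hz]
    rw [fwdDiff_iter_eq_sum_shift]
    simp
  refine ⟨∑ k ∈ range N, Polynomial.C ((a k : ℚ) / (k.factorial : ℚ)) * descPochhammer ℚ k,
    ?_, ?_⟩
  · rw [← Polynomial.mem_degreeLT]
    refine Submodule.sum_mem _ fun k hk => ?_
    rw [Polynomial.mem_degreeLT]
    have hk' : k < N := by simpa using hk
    calc (Polynomial.C ((a k : ℚ) / (k.factorial : ℚ)) * descPochhammer ℚ k).degree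
        ≤ (descPochhammer ℚ k).degree := by
          refine (Polynomial.degree_mul_le _ _).trans ?_
          have := Polynomial.degree_C_le (a := (a k : ℚ) / (k.factorial : ℚ))
          calc _ ≤ (0 : WithBot ℕ) + (descPochhammer ℚ k).degree := by gcongr
            _ = _ := zero_add _
      _ ≤ (k : WithBot ℕ) := by
          refine Polynomial.degree_le_natDegree.trans ?_
          rw [descPochhammer_natDegree]
      _ < N := by exact_mod_cast hk'
  · intro n
    have h1 := shift_eq_sum_fwdDiff_iter 1 P n 0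
    simp only [zero_add, smul_eq_mul, mul_one] at h1
    have h2 : ∑ k ∈ range (n + 1), n.choose k • (fwdDiff (1 : ℕ))^[k] P 0 =
        ∑ k ∈ range N, (n.choose k : ℤ) * a k := by
      have e1 : ∑ k ∈ range (n + 1), n.choose k • (fwdDiff (1 : ℕ))^[k] P 0 =
          ∑ k ∈ range (max (n + 1) N), (n.choose k : ℤ) * a k := by
        have e2 : ∑ k ∈ range (n + 1), (n.choose k : ℤ) * a k =
            ∑ k ∈ range (max (n + 1) N), (n.choose k : ℤ) * a k := by
          refine Finset.sum_subset (range_subset_range.mpr (le_max_left _ _)) ?_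
          intro k _ hk
          have : n < k := by simpa using hk
          simp [Nat.choose_eq_zero_of_lt this]
        rw [← e2]
        refine Finset.sum_congr rfl fun k _ => ?_
        simp [ha]
      rw [e1]
      refine (Finset.sum_subset ?_ ?_).symm
      · exact range_subset_range.mpr (le_max_right _ _)
      · intro k _ hk
        have : N ≤ k := by simpa using hk
        simp [ha0 k this]
    rw [h1, h2, Polynomial.eval_finsetSum]
    push_cast
    refine Finset.sum_congr rfl fun k _ => ?_
    rw [Polynomial.eval_mul, Polynomial.eval_C, descPochhammer_eval_eq_descFactorial,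
      Nat.descFactorial_eq_factorial_mul_choose]
    have : (k.factorial : ℚ) ≠ 0 := by exact_mod_cast k.factorial_ne_zero
    push_cast
    field_simp

/-- ABS2. -/
theorem exists_large (P : ℕ → ℤ) (N : ℕ)
    (h : ∀ b, ∑ S : Finset (Fin N), (-1 : ℤ) ^ S.card * P (b + S.card) = 0) (h0 : P 0 ≠ 0) :
    ∃ j, 1 ≤ j ∧ j ≤ (2 * (P 0).natAbs - 1) * N ∧ (P 0).natAbs ≤ (P j).natAbs := by
  obtain ⟨q, hq, hqP⟩ := poly_of P N h
  by_contra hcon
  push Not at hcon
  set m := (P 0).natAbs with hm
  have hm1 : 1 ≤ m := Nat.one_le_iff_ne_zero.mpr (by simpa [hm] using h0)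
  have hN : 0 < N := by
    rcases Nat.eq_zero_or_pos N with rfl | hN
    · exfalso
      have : q = 0 := by
        have : q.degree < 0 := by simpa using hq
        exact Polynomial.degree_eq_bot.mp (by
          rcases lt_or_ge q.degree 0 with h1 | h1
          · exact (Nat.WithBot.lt_zero_iff).mp h1
          · exact absurd this (not_lt.mpr h1))
      have h2 := hqP 0
      rw [this] at h2
      simp at h2
      exact h0 (by exact_mod_cast h2.symm)
    · exact hN
  -- pigeonhole
  let s : Finset ℕ := Finset.Icc 1 ((2 * m - 1) * N)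
  let t : Finset ℤ := Finset.Icc (-((m : ℤ) - 1)) ((m : ℤ) - 1)
  have hst : ∀ j ∈ s, P j ∈ t := by
    intro j hj
    simp only [s, Finset.mem_Icc] at hj
    have := hcon j hj.1 hj.2
    simp only [t, Finset.mem_Icc]
    omega
  have ht : t.card = 2 * m - 1 := by
    simp only [t, Int.card_Icc]
    omega
  have hs : s.card = (2 * m - 1) * N := by simp [s]
  have htne : t.Nonempty := ⟨0, by simp [t]; omega⟩
  obtain ⟨c, hc, hcc⟩ := Finset.exists_le_card_fiber_of_mul_le_card_of_maps_to hst htne
    (n := N) (by rw [ht, hs])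
  -- the polynomial q - c vanishes
  have hqc : q = Polynomial.C (c : ℚ) := by
    rw [← sub_eq_zero]
    by_contra hne
    have hdeg : (q - Polynomial.C (c : ℚ)).degree < N := by
      refine (Polynomial.degree_sub_le _ _).trans_lt (max_lt hq ?_)
      refine (Polynomial.degree_C_le).trans_lt ?_
      exact_mod_cast hN
    let Z : Finset ℚ := (s.filter (fun j => P j = c)).image (fun j : ℕ => (j : ℚ))
    have hZ : Z.card = (s.filter (fun j => P j = c)).card :=
      Finset.card_image_of_injective _ Nat.cast_injective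
    have hroots : Z.val ⊆ (q - Polynomial.C (c : ℚ)).roots := by
      intro x hx
      have hx' : x ∈ Z := hx
      simp only [Z, Finset.mem_image, Finset.mem_filter] at hx'
      obtain ⟨j, ⟨_, hj⟩, rfl⟩ := hx'
      rw [Polynomial.mem_roots hne, Polynomial.IsRoot, Polynomial.eval_sub, hqP, hj]
      simp
    have h1 := Polynomial.card_le_degree_of_subset_roots hroots
    have h2 : (q - Polynomial.C (c : ℚ)).natDegree < N :=
      (Polynomial.natDegree_lt_iff_degree_lt hne).mpr hdeg
    omega
  have h3 := hqP 0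
  rw [hqc, Polynomial.eval_C] at h3
  have h4 : c = P 0 := by exact_mod_cast h3
  simp only [t, Finset.mem_Icc] at hc
  omega

end Vale.Agent.P301.H650
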